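import Vale.Agent.P032.R2.H805.S2m.W4.P0
import Vale.Agent.P032.R2.H805.S2m.W4.P1
import Vale.Agent.P032.R2.H805.S2m.W4.P2
import Vale.Agent.P032.R2.H805.Cov

/-!
# P032: root S2m, start word 4: start, step, end
-/

set_option autoImplicit false
set_option maxRecDepth 100000

namespace Vale.Agent.P032.R2.H805.S2m.W4

open Vale.Agent.P032.R2.H741.Tp
open Vale.Agent.P032.R2.H805.Step
open Vale.Agent.P032.R2.H805.Rup

section

variable {S : Sem}

theorem stepB (A : Ax G S) (H : Hds (val S) BX) : Hns (val S) B :=
  hns_cons (Blk0.blk A H) (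
  hns_cons (Blk1.blk A H) (
  hns_cons (Blk2.blk A H) (hns_nil)))

theorem f1 (A : Ax G S) : Hd (val S) (List.map nxl [1105]) := A.l .first rfl

theorem hx (h : Hd (val S) [1105]) (H : Hds (val S) B) : Hds (val S) BX := by
  intro b hb
  rcases List.mem_append.1 hb with h1 | h1
  · exact H b h1
  · rw [List.mem_singleton.1 h1]
    have h2 : ∀ c ∈ exF, (1105 : ℕ) ∈ c := by decide
    intro c hc
    obtain ⟨j, hj, hl⟩ := h
    rw [List.mem_singleton] at hj
    exact ⟨1105, h2 c hc, hj ▸ hl⟩

theorem hx2 (h : ∀ c ∈ ex, Hd (val S) c) (H : Hds (val S) B) : Hds (val S) BX := by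
  intro b hb
  rcases List.mem_append.1 hb with h1 | h1
  · exact H b h1
  · rw [List.mem_singleton.1 h1]
    have h2 : ∀ c ∈ exF, ∃ e ∈ ex, ∀ j ∈ e, j ∈ c := by decide
    intro c hc
    obtain ⟨e, he, h3⟩ := h2 c hc
    obtain ⟨j, hj, hl⟩ := h e he
    exact ⟨j, h3 j hj, hl⟩

/-- **step** -/
theorem step (A : Ax G S) (H : ∀ c ∈ inv, Hd (val S) c) : ∀ c ∈ inv, Hd (val S) (c.map nxl) := by
  have h1 := List.forall_mem_cons.1 H
  exact List.forall_mem_cons.2 ⟨f1 A, hns_flat.1 (stepB A (hx h1.1 (hds_flat.2 h1.2)))⟩

theorem e0 : fns G B [.some 1 0, .some 1 3, .some 1 5, .uniq 0 2 1 2, .uniq 1 2 0 2, .uniq 1 2 1 2, .legal 1 0 1, .legal 1 2 2, .legal 1 3 1, .legal 1 4 1, .legal 1 5 0, .legal 1 5 2, .legal2 0 1 0 1 3, .legal2 0 1 1 0 3, .legal2 0 1 3 0 3, .legal2 0 1 4 1 3, .legal2 0 1 5 0 3]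
    [.closeX 0 0 1 1, .closeX 0 1 0 1, .closeX 0 2 1 1, .closeX 0 3 0 1, .closeX 0 4 1 1, .closeX 0 5 0 1, .closeX 1 0 0 0, .closeX 1 0 2 0, .closeX 1 1 1 1, .closeX 1 2 2 1, .closeX 1 3 0 0, .closeX 1 4 1 1, .closeX 1 5 0 0, .closeX 1 5 2 0, .first]
    [0, 1, 2, 3, 4, 5, 15, 18, 31, 82, 88, 95, 128] 0x1423ec22843e43c45144c44a44544244017c19118c1891841810142d301100c2c70040012d12c52c92ca2c800a0092d72d62d52d42cf2ce2cd2cc2c32c22c12c0
    [[0,2,4,6], [8,10,12,14], [16,18,20,22], [25,27], [29,31], [33,31], [3,35], [31,13], [11,37], [37,19], [1,17], [5,21], [39,7], [41,43], [45,15], [47,49], [51,23], [38,53], [40,55], [24,57], [44,59], [46,61], [50,63], [1,64], [5,66], [34,69], [30,71], [9,72], [36,75], [17,76], [21,78], [81], [62], [52], [54], [56], [58], [60], [80,82], [80,70], [26,2,4,42,28,10,48,79,65,69,71,73,75], [80,74], [26,28,32,10,48,77,67,69,71,73,75], [84,83], [85,68]]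
    43 7 135 1
    (.leaf 0x40040000000000000000000000000000080000000000000000000001000000000000000000000000000010000000000800000000000000000000000010000000000000000000000000000040000000001000000000000000000000100000000000000000000000000008000000000001000000000000000000000000000020000000000000400000000000000000000000000000001000000000200000000000000000000000010000000000000000000000000000800000000000000004000000000000000000100000000000000080000000000000000000000001000000000000000000000000000040000000000008000000000000000000000020000000000000000000000000000020000000000000000800000000000004000000000000000000000000000000010000000000000000000020000000000000100000000000000000000000000000100000000000000020000000000000000000000800000000200000000000040000000040000000001000000000003f000000000000101602000000000000480000000005e8000000000001206026000000000004200000000000000000003000000000000000000000001000000000000000000000200000000000000000000040000000000000000000008000000000000000000001000000000000000000008000000020000000000000000000000000000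2000800000000000000000200100000000001000000000000000400000000000002004000000000040000000000000008000008000000000000008000000000000020020000000000000000002004000000000040000000000020000000008000000000002000000001000000000000400000000200000000000000400000040000000000010000000008000000000002000000001000400000000000000000300000000000000000000020004000000000000000006000000000000000000000400040000000000000000000808000000000000000000080800000000000000008040000000000000000002001000000000000000000100800000000000000000100010000000000000000030000000000000000000006000000000000000000000600000000000000000000000000000000f0000000000000000000003c000000000000000000000f)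
    [0xcce9e000c67f3402b8ee1dae92d60427b3000b9600f4b000e2319400c29027c64776d173570fdec9851801c9000137751c00960006c50049100230c017420024100512000cd80077c00d3d00b5e0058bc01064007b900552800ad80086c00db500a10001ccc0134600b2600298003ab80274001520] 45 79 = true := by
  decide +kernel

/-- **end** -/
theorem fin (A : ∀ f : CS, f.ok G = true → Hd (val S) (f.cl G))
    (A2 : ∀ f : CB, f.ok G = true → Hd (val S) (f.cl G)) : ¬ ∀ c ∈ inv, Hd (val S) c :=
  fun H => fns_sound A A2 e0 (hds_flat.2 (List.forall_mem_cons.1 H).2)

theorem i0 : stu G units [.legal2 0 1 2 0 3]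
    [.initX 0 2 0 1]
    [1105, 1431] 0x22819118c18918117c1842cb008
    [[1,3], [0,5], [6], [8], [4], [10], [12], [14], [16], [2]]
    9 4 7 1
    (.leaf 0x1000080100002000040000800004000400008020040600)
    [0x1ba025] 10 11 = true := by
  decide +kernel

theorem j0 (A : ∀ f : CS, f.ok G = true → Hd (val S) (f.cl G))
    (A2 : ∀ f : CI, f.ok G = true → Hd (val S) (f.cl G)) (hU : ∀ c ∈ units, Hd (val S) c) :
    Hd (val S) [1105, 1431] :=
  stu_sound A A2 hU i0

theorem i1 : stu G units []
    [.initX 0 0 0 1]
    [0, 2, 1408, 1424, 1428, 1430, 1446, 2173, 2177, 2187, 2197, 2201, 2211] 0x45144c44a44544043e2d32cb2ca2c82c000119118c18918418117c000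
    [[0,3], [2], [4], [6], [8], [10], [12], [1], [15], [17], [19], [21], [23], [25], [26], [28], [30], [32], [34], [36]]
    19 5 4 1
    (.leaf 0x100000000020000000004000000000800000000100000000020000200000000040000000008000000001000000000200000000040000000000200000000000040000000008000000001000000000200000000040000000008000100001)
    [0x502] 20 20 = true := by
  decide +kernel

theorem j1 (A : ∀ f : CS, f.ok G = true → Hd (val S) (f.cl G))
    (A2 : ∀ f : CI, f.ok G = true → Hd (val S) (f.cl G)) (hU : ∀ c ∈ units, Hd (val S) c) :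
    Hd (val S) [0, 2, 1408, 1424, 1428, 1430, 1446, 2173, 2177, 2187, 2197, 2201, 2211] :=
  stu_sound A A2 hU i1

theorem i2 : stu G units []
    [.initX 0 1 1 1]
    [8, 10, 2169, 2181, 2187, 2197, 2201, 2211, 2288] 0x47845144c44a44544243c00419118c18918417c181005
    [[0,3], [4], [2], [6], [8], [10], [12], [15], [1], [16], [18], [20], [22], [24], [26], [29]]
    15 5 4 1
    (.leaf 0x800000000002000000040000000800000010000000200000004000008000010000000000040000000800000010000000200000002000000100010001)
    [0x523] 16 16 = true := by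
  decide +kernel

theorem j2 (A : ∀ f : CS, f.ok G = true → Hd (val S) (f.cl G))
    (A2 : ∀ f : CI, f.ok G = true → Hd (val S) (f.cl G)) (hU : ∀ c ∈ units, Hd (val S) c) :
    Hd (val S) [8, 10, 2169, 2181, 2187, 2197, 2201, 2211, 2288] :=
  stu_sound A A2 hU i2

theorem i3 : stu G units []
    [.initX 0 4 0 1]
    [32, 2008] 0x3ec19118918418117c18c010
    [[0,3], [4], [6], [8], [10], [2], [12], [1], [15]]
    8 4 4 1
    (.leaf 0x800001000040000200200010000800040201)
    [0x168] 9 9 = true := by
  decide +kernel

theorem j3 (A : ∀ f : CS, f.ok G = true → Hd (val S) (f.cl G))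
    (A2 : ∀ f : CI, f.ok G = true → Hd (val S) (f.cl G)) (hU : ∀ c ∈ units, Hd (val S) c) :
    Hd (val S) [32, 2008] :=
  stu_sound A A2 hU i3

theorem i4 : stu G units []
    [.initX 0 1 1 1]
    [8, 10, 14, 1418, 1949, 2169, 2181, 2187, 2197, 2201, 2211] 0x45144c44a44544243c3ce2c500700419118c18918417c181005
    [[0,3], [4], [2], [6], [8], [10], [12], [15], [1], [17], [19], [20], [22], [24], [26], [28], [30], [32]]
    17 5 4 1
    (.leaf 0x40000000080000000100000000200000000400000000800000001000040000000080000000002000000400000000000040000000080000000100000000200000000200000001000040001)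
    [0x523] 18 18 = true := by
  decide +kernel

theorem j4 (A : ∀ f : CS, f.ok G = true → Hd (val S) (f.cl G))
    (A2 : ∀ f : CI, f.ok G = true → Hd (val S) (f.cl G)) (hU : ∀ c ∈ units, Hd (val S) c) :
    Hd (val S) [8, 10, 14, 1418, 1949, 2169, 2181, 2187, 2197, 2201, 2211] :=
  stu_sound A A2 hU i4

theorem i5 : stu G units []
    [.initX 0 1 1 1]
    [8, 10, 14, 1418, 1967, 2169, 2181, 2187, 2197, 2201, 2211] 0x45144c44a44544243c3d72c500700419118c18918417c181005
    [[0,3], [4], [2], [6], [8], [10], [12], [15], [1], [17], [19], [20], [22], [24], [26], [28], [30], [32]]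
    17 5 4 1
    (.leaf 0x40000000080000000100000000200000000400000000800000001000040000000080000000002000000400000000000040000000080000000100000000200000000200000001000040001)
    [0x523] 18 18 = true := by
  decide +kernel

theorem j5 (A : ∀ f : CS, f.ok G = true → Hd (val S) (f.cl G))
    (A2 : ∀ f : CI, f.ok G = true → Hd (val S) (f.cl G)) (hU : ∀ c ∈ units, Hd (val S) c) :
    Hd (val S) [8, 10, 14, 1418, 1967, 2169, 2181, 2187, 2197, 2201, 2211] :=
  stu_sound A A2 hU i5

theorem i6 : stu G units []
    [.initX 0 1 1 1]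
    [8, 10, 1410, 1412, 1454, 2169, 2181, 2187, 2197, 2201, 2211, 2290] 0x47945144c44a44544243c2d72c22c100419118c18918417c181005
    [[0,3], [4], [2], [6], [8], [10], [12], [15], [1], [17], [19], [21], [22], [24], [26], [28], [30], [32], [35]]
    18 5 4 1
    (.leaf 0x800000000000010000000008000000004000000002000000001000000000800010000000008000000004000000000040000002000000000000040000000020000000010000000008000000002000000004000080001)
    [0x469] 19 19 = true := by
  decide +kernel

theorem j6 (A : ∀ f : CS, f.ok G = true → Hd (val S) (f.cl G))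
    (A2 : ∀ f : CI, f.ok G = true → Hd (val S) (f.cl G)) (hU : ∀ c ∈ units, Hd (val S) c) :
    Hd (val S) [8, 10, 1410, 1412, 1454, 2169, 2181, 2187, 2197, 2201, 2211, 2290] :=
  stu_sound A A2 hU i6

/-- clauses which hold at the start -/
def E : List (List ℕ) :=
  [[1105, 1431],
   [0, 2, 1408, 1424, 1428, 1430, 1446, 2173, 2177, 2187, 2197, 2201, 2211],
   [8, 10, 2169, 2181, 2187, 2197, 2201, 2211, 2288],
   [32, 2008],
   [8, 10, 14, 1418, 1949, 2169, 2181, 2187, 2197, 2201, 2211],
   [8, 10, 14, 1418, 1967, 2169, 2181, 2187, 2197, 2201, 2211],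
   [8, 10, 1410, 1412, 1454, 2169, 2181, 2187, 2197, 2201, 2211, 2290]]

theorem ini_ok : ini G [.initX 1 0 0 1, .initX 1 0 2 1, .initX 1 1 0 1, .initX 1 1 2 1, .initX 1 2 1 0, .initX 1 2 1 1, .initX 1 3 2 0, .initX 1 3 2 1, .initX 1 4 0 1, .initX 1 5 1 0, .initX 1 5 1 1, .M0 0 0 3, .M0 0 2 1, .M0 0 3 4, .M0 1 0 0, .M0 1 0 1, .cnt0 1 3 1, .first]
    (units ++ E) B = true := by
  decide +kernel

theorem hE (A : ∀ f : CS, f.ok G = true → Hd (val S) (f.cl G))
    (A2 : ∀ f : CI, f.ok G = true → Hd (val S) (f.cl G)) (hU : ∀ c ∈ units, Hd (val S) c) : ∀ e ∈ E, Hd (val S) e :=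
  List.forall_mem_cons.2 ⟨j0 A A2 hU, List.forall_mem_cons.2 ⟨j1 A A2 hU, List.forall_mem_cons.2 ⟨j2 A A2 hU, List.forall_mem_cons.2 ⟨j3 A A2 hU, List.forall_mem_cons.2 ⟨j4 A A2 hU, List.forall_mem_cons.2 ⟨j5 A A2 hU, List.forall_mem_cons.2 ⟨j6 A A2 hU, (by simp)⟩⟩⟩⟩⟩⟩⟩

/-- **start** -/
theorem start0 (A : Ax G S) (A2 : ∀ f : CI, f.ok G = true → Hd (val S) (f.cl G))
    (hU : ∀ e ∈ units, Hd (val S) e) :
    Hds (val S) B :=
  ini_sound A2 (fun e he => (List.mem_append.1 he).elim (hU e) (hE A.s A2 hU e)) ini_ok

/-- **after the first instant** -/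
theorem start (A : Ax G S) (A2 : ∀ f : CI, f.ok G = true → Hd (val S) (f.cl G))
    (hX : ∀ c ∈ ex, Hd (val S) c) (hU : ∀ e ∈ units, Hd (val S) e) : ∀ c ∈ inv, Hd (val S) (c.map nxl) :=
  List.forall_mem_cons.2 ⟨f1 A, hns_flat.1 (stepB A (hx2 hX (start0 A A2 hU)))⟩

end

end Vale.Agent.P032.R2.H805.S2m.W4
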